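import Mathlib

namespace Vale.Agent.P040.Sph35

open Finset Polynomial

/-- A finite set of nonzero vectors of `ℝ³`: some vector (on the moment curve) is orthogonal to none. -/
theorem exists_generic (W : Finset (ℝ × ℝ × ℝ)) (hW : ∀ w ∈ W, w ≠ 0) :
    ∃ g : ℝ × ℝ × ℝ, ∀ w ∈ W, g.1 * w.1 + g.2.1 * w.2.1 + g.2.2 * w.2.2 ≠ 0 := by
  classical
  let p : ℝ × ℝ × ℝ → ℝ[X] := fun w => C w.1 + C w.2.1 * X + C w.2.2 * X ^ 2
  have hp : ∀ w ∈ W, p w ≠ 0 := by
    intro w hw h0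
    apply hW w hw
    have c0 : (p w).coeff 0 = w.1 := by simp [p]
    have c1 : (p w).coeff 1 = w.2.1 := by
      simp [p, coeff_X, coeff_C]
    have c2 : (p w).coeff 2 = w.2.2 := by
      simp [p, coeff_X, coeff_C]
    rw [h0] at c0 c1 c2
    simp only [coeff_zero] at c0 c1 c2
    ext <;> simp [← c0, ← c1, ← c2]
  obtain ⟨t, ht⟩ := Infinite.exists_notMem_finset (W.biUnion fun w => (p w).roots.toFinset)
  refine ⟨(1, t, t ^ 2), fun w hw h0 => ht ?_⟩
  rw [mem_biUnion]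
  refine ⟨w, hw, ?_⟩
  rw [Multiset.mem_toFinset, mem_roots (hp w hw), IsRoot.def]
  simp only [p, eval_add, eval_C, eval_mul, eval_X, eval_pow]
  simp only at h0
  linarith

end Vale.Agent.P040.Sph35
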