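import Mathlib

namespace Vale.Agent.P040.Sph35

open Finset

/-- On a `τ`-invariant finite set the number of sign changes along `τ` is even. -/
theorem even_changes {X : Type*} [DecidableEq X] (τ : Equiv.Perm X) (eps : X → Bool)
    (S : Finset X) (hS : ∀ x, τ x ∈ S ↔ x ∈ S) :
    Even (S.filter (fun x => eps (τ x) ≠ eps x)).card := by
  classical
  set b : X → ZMod 2 := fun x => if eps x then 1 else 0 with hb
  have h1 : ((S.filter (fun x => eps (τ x) ≠ eps x)).card : ZMod 2)
      = ∑ x ∈ S, (b (τ x) + b x) := by
    rw [Finset.card_filter, Nat.cast_sum]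
    apply Finset.sum_congr rfl
    intro x _
    simp only [hb]
    cases h1 : eps (τ x) <;> cases h2 : eps x <;> (simp; try decide)
  have h2 : ∑ x ∈ S, b (τ x) = ∑ x ∈ S, b x := by
    apply Finset.sum_equiv τ
    · intro x; exact (hS x).symm
    · intro x _; rfl
  rw [Finset.sum_add_distrib, h2] at h1
  have h3 : ((S.filter (fun x => eps (τ x) ≠ eps x)).card : ZMod 2) = 0 := by
    rw [h1]
    have : ∀ z : ZMod 2, z + z = 0 := by decide
    exact this _
  rw [ZMod.natCast_eq_zero_iff] at h3
  exact (even_iff_two_dvd).2 h3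

theorem parity_lemma {X : Type*} [Fintype X] [DecidableEq X] (τ : Equiv.Perm X) (σ : X → X)
    (hσ : ∀ x, σ (σ x) = x) (hcomm : ∀ x, σ (τ x) = τ (σ x)) (eps : X → Bool)
    (heps : ∀ x, eps (σ x) = !eps x)
    (hcount : (Finset.univ.filter (fun x => eps (τ x) ≠ eps x)).card % 4 = 2) :
    ∃ x, τ.SameCycle x (σ x) := by
  classical
  by_contra hno
  push Not at hno
  -- representative index of an orbit
  let rep : X → X := fun x => (Quotient.mk (Equiv.Perm.SameCycle.setoid τ) x).out
  have hrep : ∀ x y, rep x = rep y ↔ τ.SameCycle x y := by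
    intro x y
    constructor
    · intro h
      have : (Quotient.mk (Equiv.Perm.SameCycle.setoid τ) x)
          = (Quotient.mk (Equiv.Perm.SameCycle.setoid τ) y) := by
        have := congrArg (Quotient.mk (Equiv.Perm.SameCycle.setoid τ)) h
        simpa [rep, Quotient.out_eq] using this
      exact Quotient.exact this
    · intro h
      have : (Quotient.mk (Equiv.Perm.SameCycle.setoid τ) x)
          = (Quotient.mk (Equiv.Perm.SameCycle.setoid τ) y) := Quotient.sound h
      simp only [rep, this]
  let idx : X → ℕ := fun x => (Fintype.equivFin X (rep x) : ℕ)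
  have hidx : ∀ x y, idx x = idx y ↔ τ.SameCycle x y := by
    intro x y
    rw [← hrep]
    constructor
    · intro h
      exact (Fintype.equivFin X).injective (Fin.ext h)
    · intro h
      simp only [idx, h]
  have hidxτ : ∀ x, idx (τ x) = idx x := by
    intro x
    rw [hidx]
    exact (Equiv.Perm.SameCycle.refl τ x).apply_left
  set S : Finset X := Finset.univ.filter (fun x => idx x < idx (σ x)) with hSdef
  have hSτ : ∀ x, τ x ∈ S ↔ x ∈ S := by
    intro x
    simp only [hSdef, mem_filter, mem_univ, true_and]
    rw [hcomm, hidxτ, hidxτ]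
  have hSσ : ∀ x, σ x ∈ S ↔ x ∉ S := by
    intro x
    simp only [hSdef, mem_filter, mem_univ, true_and]
    rw [hσ]
    have : idx x ≠ idx (σ x) := fun h => hno x ((hidx _ _).1 h)
    omega
  have heven := even_changes τ eps S hSτ
  have hsplit : (Finset.univ.filter (fun x => eps (τ x) ≠ eps x)).card
      = (S.filter (fun x => eps (τ x) ≠ eps x)).card
        + (S.filter (fun x => eps (τ x) ≠ eps x)).card := by
    have h1 : (Finset.univ.filter (fun x => eps (τ x) ≠ eps x))
        = (S.filter (fun x => eps (τ x) ≠ eps x)) ∪ (Sᶜ.filter (fun x => eps (τ x) ≠ eps x)) := by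
      ext x
      simp only [mem_filter, mem_univ, true_and, mem_union, mem_compl]
      tauto
    have h2 : Disjoint (S.filter (fun x => eps (τ x) ≠ eps x))
        (Sᶜ.filter (fun x => eps (τ x) ≠ eps x)) := by
      rw [Finset.disjoint_left]
      intro x hx hx'
      simp only [mem_filter, mem_compl] at hx hx'
      exact hx'.1 hx.1
    rw [h1, Finset.card_union_of_disjoint h2]
    congr 1
    apply Finset.card_bij (fun x _ => σ x)
    · intro x hx
      simp only [mem_filter, mem_compl] at hx ⊢
      refine ⟨(hSσ x).2 hx.1, ?_⟩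
      rw [← hcomm, heps, heps]
      intro h
      apply hx.2
      cases h1 : eps (τ x) <;> cases h2 : eps x <;> simp_all
    · intro x _ y _ h
      have := congrArg σ h
      simpa [hσ] using this
    · intro y hy
      simp only [mem_filter] at hy
      refine ⟨σ y, ?_, hσ y⟩
      simp only [mem_filter, mem_compl]
      refine ⟨?_, ?_⟩
      · intro h
        have := (hSσ y).1 h
        exact this hy.1
      · rw [← hcomm, heps, heps]
        intro h
        apply hy.2
        cases h1 : eps (τ y) <;> cases h2 : eps y <;> simp_all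
  obtain ⟨r, hr⟩ := heven
  omega


/-- Natural-power form of `parity_lemma`. -/
theorem parity_lemma_pow {X : Type*} [Fintype X] [DecidableEq X] (τ : Equiv.Perm X) (σ : X → X)
    (hσ : ∀ x, σ (σ x) = x) (hcomm : ∀ x, σ (τ x) = τ (σ x)) (eps : X → Bool)
    (heps : ∀ x, eps (σ x) = !eps x)
    (hcount : (Finset.univ.filter (fun x => eps (τ x) ≠ eps x)).card % 4 = 2) :
    ∃ x, ∃ t : ℕ, (τ ^ t) x = σ x := by
  obtain ⟨x, hx⟩ := parity_lemma τ σ hσ hcomm eps heps hcount
  obtain ⟨t, ht⟩ := hx.exists_nat_pow_eq
  exact ⟨x, t, ht⟩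

end Vale.Agent.P040.Sph35
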